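import Mathlib

/-!
P096, UNIFORM: weak limits along an ultrafilter and a minimax over finitely many tests.
-/

open scoped InnerProductSpace ComplexConjugate
open Filter Topology

namespace Vale.Agent.P096.Full.Uniform

universe u

variable {X : Type u} [NormedAddCommGroup X] [InnerProductSpace ℂ X] [CompleteSpace X]
  {σ : Type*}

/-- `v` is the weak limit of `f`. -/
def WLim (F : Filter σ) (f : σ → X) (v : X) : Prop :=
  ∀ ζ, Tendsto (fun c => ⟪ζ, f c⟫_ℂ) F (𝓝 ⟪ζ, v⟫_ℂ)

theorem exists_wLim (U : Ultrafilter σ) (f : σ → X) {r : ℝ}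
    (h : ∀ᶠ c in (U : Filter σ), ‖f c‖ ≤ r) : ∃ v, WLim (U : Filter σ) f v := by
  have hlim : ∀ ζ : X, ∃ z : ℂ, Tendsto (fun c => ⟪f c, ζ⟫_ℂ) (U : Filter σ) (𝓝 z) ∧
      ‖z‖ ≤ r * ‖ζ‖ := by
    intro ζ
    have hb : ∀ᶠ c in (U : Filter σ), ⟪f c, ζ⟫_ℂ ∈ Metric.closedBall (0 : ℂ) (r * ‖ζ‖) := by
      filter_upwards [h] with c hc
      rw [mem_closedBall_zero_iff]
      exact (norm_inner_le_norm _ _).trans (mul_le_mul_of_nonneg_right hc (norm_nonneg ζ))
    obtain ⟨z, hz, hle⟩ := (isCompact_closedBall (0 : ℂ) (r * ‖ζ‖)).ultrafilter_le_nhds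
      (U.map fun c => ⟪f c, ζ⟫_ℂ) (le_principal_iff.mpr hb)
    exact ⟨z, hle, mem_closedBall_zero_iff.mp hz⟩
  choose g hg hgb using hlim
  let l : X →ₗ[ℂ] ℂ :=
    { toFun := g
      map_add' := fun a b => tendsto_nhds_unique (hg (a + b))
        (((hg a).add (hg b)).congr fun c => (inner_add_right _ _ _).symm)
      map_smul' := fun t a => tendsto_nhds_unique (hg (t • a))
        (((hg a).const_mul t).congr fun c => (inner_smul_right _ _ _).symm) }
  refine ⟨(InnerProductSpace.toDual ℂ X).symm (l.mkContinuous r hgb), fun ζ => ?_⟩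
  have h2 := (continuous_star.tendsto _).comp (hg ζ)
  rw [← inner_conj_symm ζ, InnerProductSpace.toDual_symm_apply]
  refine h2.congr fun c => ?_
  simp only [Function.comp_apply, ← starRingEnd_apply, inner_conj_symm]

namespace WLim

variable {F : Filter σ} {f g : σ → X} {v w : X}

omit [CompleteSpace X] in
theorem unique [F.NeBot] (hv : WLim F f v) (hw : WLim F f w) : v = w :=
  ext_inner_left ℂ fun ζ => tendsto_nhds_unique (hv ζ) (hw ζ)

omit [CompleteSpace X] in
theorem congr (hv : WLim F f v) (h : ∀ᶠ c in F, f c = g c) : WLim F g v := fun ζ =>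
  (hv ζ).congr' (h.mono fun c hc => by rw [hc])

omit [CompleteSpace X] in
theorem const (v : X) : WLim F (fun _ => v) v := fun _ => tendsto_const_nhds

omit [CompleteSpace X] in
theorem add (hv : WLim F f v) (hw : WLim F g w) : WLim F (fun c => f c + g c) (v + w) :=
  fun ζ => by simpa only [inner_add_right] using (hv ζ).add (hw ζ)

omit [CompleteSpace X] in
theorem sub (hv : WLim F f v) (hw : WLim F g w) : WLim F (fun c => f c - g c) (v - w) :=
  fun ζ => by simpa only [inner_sub_right] using (hv ζ).sub (hw ζ)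

omit [CompleteSpace X] in
theorem smul (a : ℂ) (hv : WLim F f v) : WLim F (fun c => a • f c) (a • v) :=
  fun ζ => by simpa only [inner_smul_right] using (hv ζ).const_mul a

theorem map (hv : WLim F f v) {Y : Type*} [NormedAddCommGroup Y] [InnerProductSpace ℂ Y]
    [CompleteSpace Y] (T : X →L[ℂ] Y) : WLim F (fun c => T (f c)) (T v) := fun ζ => by
  simpa only [ContinuousLinearMap.adjoint_inner_left] using hv (T.adjoint ζ)

omit [CompleteSpace X] in
theorem toLp {I : Type*} [Fintype I] {f : σ → I → X} {v : I → X}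
    (h : ∀ i, WLim F (fun c => f c i) (v i)) :
    WLim F (fun c => (WithLp.toLp 2 (f c) : PiLp 2 fun _ : I => X)) (WithLp.toLp 2 v) := fun ζ => by
  simp only [PiLp.inner_apply]
  exact tendsto_finsetSum _ fun i _ => h i (ζ i)

omit [CompleteSpace X] in
theorem norm_le [F.NeBot] {r : ℝ} (hv : WLim F f v) (h : ∀ᶠ c in F, ‖f c‖ ≤ r) : ‖v‖ ≤ r := by
  obtain ⟨c, hc⟩ := h.exists
  have hr : 0 ≤ r := (norm_nonneg _).trans hc
  have h2 : ‖v‖ ^ 2 ≤ ‖v‖ * r := by
    rw [← inner_self_eq_norm_sq (𝕜 := ℂ)]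
    refine le_of_tendsto ((Complex.continuous_re.tendsto _).comp (hv v)) (h.mono fun c hc => ?_)
    exact (re_inner_le_norm (𝕜 := ℂ) v (f c)).trans
      (mul_le_mul_of_nonneg_left hc (norm_nonneg v))
  nlinarith [norm_nonneg v]

end WLim

/-- If every weighted sum of convex nonnegative tests can be made at most `c` per unit of weight,
then one point makes all of them at most `2 c` at once. -/
theorem exists_all_le {S ι : Type*} [Fintype ι] (Q : ι → S → ℝ) {c : ℝ} (hc : 0 < c)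
    (hconv : ∀ s t, ∀ a b : ℝ, 0 ≤ a → 0 ≤ b → a + b = 1 →
      ∃ v, ∀ i, Q i v ≤ a * Q i s + b * Q i t)
    (hnon : ∀ i s, 0 ≤ Q i s)
    (h : ∀ m : ι → ℕ, ∃ s, ∑ i, (m i : ℝ) * Q i s ≤ c * ∑ i, (m i : ℝ)) :
    ∃ s, ∀ i, Q i s ≤ 2 * c := by
  classical
  by_contra hcon
  push Not at hcon
  set V : Set (ι → ℝ) := {y | ∃ s, ∀ i, Q i s ≤ y i}
  set W : Set (ι → ℝ) := {y | ∀ i, y i < 2 * c}
  have hVc : Convex ℝ V := by
    rintro y ⟨s, hs⟩ z ⟨t, ht⟩ a b ha hb hab
    obtain ⟨v, hv⟩ := hconv s t a b ha hb hab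
    exact ⟨v, fun i => (hv i).trans (add_le_add (mul_le_mul_of_nonneg_left (hs i) ha)
      (mul_le_mul_of_nonneg_left (ht i) hb))⟩
  have hWc : Convex ℝ W := by
    intro y hy z hz a b ha hb hab i
    exact convex_Iio (2 * c) (hy i) (hz i) ha hb hab
  have hWo : IsOpen W := by
    simp only [W, Set.setOf_forall]
    exact isOpen_iInter_of_finite fun i => isOpen_lt (continuous_apply i) continuous_const
  have hd : Disjoint W V := Set.disjoint_left.mpr fun y hy ⟨s, hs⟩ => by
    obtain ⟨i, hi⟩ := hcon s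
    exact absurd ((hs i).trans_lt (hy i)) (not_lt.mpr hi.le)
  obtain ⟨f, a, hfW, hfV⟩ := geometric_hahn_banach_open hWc hWo hVc hd
  set w : ι → ℝ := fun i => f (Pi.single i 1)
  have hsum : ∀ y, f y = ∑ i, y i * w i := fun y => by
    conv_lhs => rw [pi_eq_sum_univ' y, map_sum]
    simp only [map_smul, smul_eq_mul, w]
  obtain ⟨s₀, -⟩ := h 0
  have hV0 : (fun i => Q i s₀) ∈ V := ⟨s₀, fun i => le_rfl⟩
  have hw : ∀ i, 0 ≤ w i := by
    intro i
    by_contra hi
    push Not at hi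
    obtain ⟨n, hn⟩ := exists_nat_gt ((f (fun j => Q j s₀) - a) / (-w i))
    rw [div_lt_iff₀ (by linarith)] at hn
    have hmem : (fun j => Q j s₀) + (n : ℝ) • Pi.single i (1 : ℝ) ∈ V := by
      refine ⟨s₀, fun j => le_add_of_nonneg_right ?_⟩
      rcases eq_or_ne j i with rfl | hj
      · simp
      · simp [hj]
    have := hfV _ hmem
    rw [map_add, map_smul, smul_eq_mul] at this
    linarith [show (n : ℝ) * w i = (n : ℝ) * f (Pi.single i 1) from rfl]
  have hmain : ∀ s, 2 * c * ∑ i, w i ≤ ∑ i, Q i s * w i := by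
    intro s
    by_contra hs
    push Not at hs
    have hv := hfV (fun i => Q i s) ⟨s, fun i => le_rfl⟩
    rw [hsum] at hv
    rcases (Finset.sum_nonneg fun i _ => hw i).eq_or_lt with hz | hz
    · exact absurd hs (not_lt.mpr (by
        rw [← hz, mul_zero]
        exact Finset.sum_nonneg fun i _ => mul_nonneg (hnon i s) (hw i)))
    · set t := (∑ i, Q i s * w i) / ∑ i, w i
      have ht : t < 2 * c := by rw [div_lt_iff₀ hz]; exact hs
      have hw' := hfW (fun _ => (t + 2 * c) / 2) (fun i => by linarith)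
      rw [hsum, ← Finset.mul_sum] at hw'
      have : t * ∑ i, w i = ∑ i, Q i s * w i := div_mul_cancel₀ _ hz.ne'
      nlinarith [mul_lt_mul_of_pos_right (show t < (t + 2 * c) / 2 by linarith) hz]
  rcases (Finset.sum_nonneg fun i _ => hw i).eq_or_lt with hz | hz
  · have h0 : ∀ i, w i = 0 := fun i =>
      (Finset.sum_eq_zero_iff_of_nonneg fun i _ => hw i).mp hz.symm i (Finset.mem_univ i)
    have h1 := hfW (fun _ => c) (fun i => by linarith)
    have h2 := hfV _ hV0
    simp [hsum, h0] at h1 h2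
    linarith
  · obtain ⟨n, hn⟩ := exists_nat_gt ((Fintype.card ι : ℝ) / ∑ i, w i)
    rw [div_lt_iff₀ hz] at hn
    obtain ⟨s, hs⟩ := h fun i => ⌈(n : ℝ) * w i⌉₊
    have h1 : (n : ℝ) * ∑ i, Q i s * w i ≤ ∑ i, (⌈(n : ℝ) * w i⌉₊ : ℝ) * Q i s := by
      rw [Finset.mul_sum]
      refine Finset.sum_le_sum fun i _ => ?_
      nlinarith [mul_le_mul_of_nonneg_right (Nat.le_ceil ((n : ℝ) * w i)) (hnon i s)]
    have h2 : ∑ i, (⌈(n : ℝ) * w i⌉₊ : ℝ) ≤ (n : ℝ) * ∑ i, w i + Fintype.card ι := by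
      rw [Finset.mul_sum, ← Finset.card_univ, Finset.cast_card, ← Finset.sum_add_distrib]
      exact Finset.sum_le_sum fun i _ =>
        (Nat.ceil_lt_add_one (mul_nonneg n.cast_nonneg (hw i))).le
    nlinarith [mul_le_mul_of_nonneg_left (hmain s) n.cast_nonneg,
      mul_le_mul_of_nonneg_left h2 hc.le, mul_lt_mul_of_pos_left hn hc]

end Vale.Agent.P096.Full.Uniform
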