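import Vale.Agent.P096.Full.Uniform.Stage

/-!
P096, UNIFORM: convexity turns one weighted test into finitely many tests at once.
-/

open scoped InnerProductSpace ComplexConjugate Matrix

namespace Vale.Agent.P096.Full.Uniform

universe u

variable {H : Type u} [NormedAddCommGroup H] [InnerProductSpace ℂ H] [CompleteSpace H] (P : Pair H)

omit [CompleteSpace H] in
theorem mapVec_comb {d : ℕ} (a b : ℂ) (L L' : (H →L[ℂ] H) → H) (X : Mat H d) :
    mapVec (a • L + b • L') X = a • mapVec L X + b • mapVec L' X :=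
  Amp.ext' fun i k => by
    simp only [mapVec, vecOf_apply, PiLp.add_apply, PiLp.smul_apply, Pi.add_apply, Pi.smul_apply]
    module

theorem good_zero {r : ℝ} (hr : 0 ≤ r) (k : ℕ) (s : Finset ℕ) : Good P r k s 0 0 := by
  refine ⟨by simp, by simp, by simp, by simp, ?_, ?_, by simp, by simp⟩ <;>
    intro d _ _ Z _
  · rw [show mapVec (0 : (H →L[ℂ] H) → H) Z = 0 from Amp.ext' fun i k => by simp [mapVec],
      norm_zero]
    exact mul_nonneg hr (norm_nonneg (leftOp Z))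
  · rw [show mapVec (0 : (H →L[ℂ] H) → H) Z = 0 from Amp.ext' fun i k => by simp [mapVec],
      norm_zero]
    exact mul_nonneg hr (norm_nonneg (rightOp Z))

variable {P}

theorem Good.comb {r : ℝ} {k : ℕ} {s : Finset ℕ} {L Λ L' Λ' : (H →L[ℂ] H) → H}
    (h : Good P r k s L Λ) (h' : Good P r k s L' Λ') {a b : ℝ} (ha : 0 ≤ a) (hb : 0 ≤ b)
    (hab : a + b = 1) :
    Good P r k s ((a : ℂ) • L + (b : ℂ) • L') ((a : ℂ) • Λ + (b : ℂ) • Λ') := by
  have hcb : ∀ {d : ℕ} (u v : Amp H d) (M : ℝ), ‖u‖ ≤ M → ‖v‖ ≤ M →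
      ‖(a : ℂ) • u + (b : ℂ) • v‖ ≤ M := fun u v M hu hv => by
    refine (norm_add_le _ _).trans ?_
    rw [norm_smul, norm_smul, Complex.norm_real, Complex.norm_real, Real.norm_of_nonneg ha,
      Real.norm_of_nonneg hb]
    calc a * ‖u‖ + b * ‖v‖ ≤ a * M + b * M := add_le_add (mul_le_mul_of_nonneg_left hu ha)
          (mul_le_mul_of_nonneg_left hv hb)
      _ = M := by rw [← add_mul, hab, one_mul]
  refine ⟨fun x hx y hy c => ?_, fun x hx y hy c => ?_, fun x hx => ?_, fun x hx => ?_,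
    fun d hd hd0 Z hZ => ?_, fun d hd hd0 Z hZ => ?_, fun g hg g' hg' x hx => ?_,
    fun g hg g' hg' y hy => ?_⟩
  · simp only [Pi.add_apply, Pi.smul_apply, h.linL x hx y hy c, h'.linL x hx y hy c]; module
  · simp only [Pi.add_apply, Pi.smul_apply, h.linR x hx y hy c, h'.linR x hx y hy c]; module
  · simp [h.outL x hx, h'.outL x hx]
  · simp [h.outR x hx, h'.outR x hx]
  · rw [mapVec_comb]; exact hcb _ _ _ (h.cbL d hd hd0 Z hZ) (h'.cbL d hd hd0 Z hZ)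
  · rw [mapVec_comb]; exact hcb _ _ _ (h.cbR d hd hd0 Z hZ) (h'.cbR d hd hd0 Z hZ)
  · simp only [Pi.add_apply, Pi.smul_apply, h.eqL g hg g' hg' x hx, h'.eqL g hg g' hg' x hx,
      map_add, map_smul]
  · simp only [Pi.add_apply, Pi.smul_apply, h.eqR g hg g' hg' y hy, h'.eqR g hg g' hg' y hy,
      map_add, map_smul]

theorem res_comb {d : ℕ} (X Y nX nY : Mat H d) (L Λ L' Λ' : (H →L[ℂ] H) → H) {a b : ℝ}
    (hab : a + b = 1) :
    res P X Y nX nY ((a : ℂ) • L + (b : ℂ) • L') ((a : ℂ) • Λ + (b : ℂ) • Λ') =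
      (a : ℂ) • res P X Y nX nY L Λ + (b : ℂ) • res P X Y nX nY L' Λ' := by
  obtain rfl : b = 1 - a := by linarith
  simp only [res, mapVec_comb, map_add, map_smul, Complex.ofReal_sub, Complex.ofReal_one]
  module

theorem res_blk {D : ℕ} {ι : Type} [Fintype ι] [DecidableEq ι] {sz : ι → ℕ}
    (e : (Σ i, Fin (sz i)) ≃ Fin D) (hsz : ∀ i, 0 < sz i) (X Y nX nY : ∀ i, Mat H (sz i))
    (L Λ : (H →L[ℂ] H) → H) (hL : L 0 = 0) (hΛ : Λ 0 = 0) :
    res P (blk e X) (blk e Y) (blk e nX) (blk e nY) L Λ =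
      bvec e (fun i => res P (X i) (Y i) (nX i) (nY i) L Λ) := by
  have mL : ∀ Z : ∀ i, Mat H (sz i), mapVec L (blk e Z) = bvec e (fun i => mapVec L (Z i)) :=
    fun Z => vecOf_blk e hsz L hL Z
  have mR : ∀ Z : ∀ i, Mat H (sz i), mapVec Λ (blk e Z) = bvec e (fun i => mapVec Λ (Z i)) :=
    fun Z => vecOf_blk e hsz Λ hΛ Z
  have h1 : mapVec L 1 = bvec e (fun i => mapVec L (1 : Mat H (sz i))) := by
    rw [← mL, blk_one]
  have h1' : mapVec Λ 1 = bvec e (fun i => mapVec Λ (1 : Mat H (sz i))) := by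
    rw [← mR, blk_one]
  simp only [res, mirror_blk, rmul_blk P, blk_mul, mL, mR, h1, h1', xi_blk P e hsz,
    ContinuousLinearMap.sub_apply, comp_mul_apply, leftOp_bvec, rightOp_bvec, ← bvec_add,
    ← bvec_sub]

/-- Finitely many tests at one level. -/
theorem stage_finite (hT : TestSpec.{u}) {CK : ℝ} (hCK : 0 ≤ CK)
    (hK : ∀ (K : Type u) [NormedAddCommGroup K] [InnerProductSpace ℂ K] [CompleteSpace K]
      (E : Letters K) (γ ν : ℝ) (N : ℕ),
      0 ≤ γ → 0 < ν → 64 ≤ N →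
      (∀ x ∈ E.A, ∀ y ∈ E.B, ‖x * y - y * x‖ ≤ γ * (‖x‖ * ‖y‖)) →
      (∀ x ∈ E.A, ∀ y ∈ E.B, ‖(x * y - y * x) E.v‖ ≤ ν * (‖x‖ * ‖y‖)) →
      ‖E.X E.v - E.X' E.v‖ ≤ ν → ‖E.Y E.v - E.Y' E.v‖ ≤ ν → TestLe E.A E.B E.v ν →
      ∃ L Λ : (K →L[ℂ] K) → K,
        (∀ x ∈ E.A, ∀ y ∈ E.A, ∀ c : ℂ, L (c • x + y) = c • L x + L y) ∧
        (∀ x ∈ E.B, ∀ y ∈ E.B, ∀ c : ℂ, Λ (c • x + y) = c • Λ x + Λ y) ∧
        (∀ x ∈ E.A, ‖L x‖ ≤ CK * ν * ‖x‖) ∧ (∀ y ∈ E.B, ‖Λ y‖ ≤ CK * ν * ‖y‖) ∧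
        (∀ x ∈ E.A, ∀ i j, L (E.a i * x * E.a j) = E.a i (E.b j (L x))) ∧
        (∀ y ∈ E.B, ∀ i j, Λ (E.b j * y * E.b i) = E.a i (E.b j (Λ y))) ∧
        ‖E.residual L Λ‖ ≤ CK * ν * (1 / Real.sqrt (Real.log N) + N * γ))
    {C₀ γ ν ν' ε : ℝ} {N : ℕ} (hN : 64 ≤ N) (hop : P.OpLe γ) (hnu : P.NuLe ν) (hle : ν ≤ ν')
    (hle₀ : C₀ * ν ≤ ν') (hε : CK * ν' * (1 / Real.sqrt (Real.log N) + N * γ) ≤ ε) (hε0 : 0 < ε)
    (k : ℕ) (s : Finset ℕ) {n : ℕ} (t : Fin n → Case P C₀ ν) :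
    ∃ L Λ, Good P (CK * ν') k s L Λ ∧
      ∀ i, ‖res P (t i).X (t i).Y (t i).nX (t i).nY L Λ‖ ≤ 2 * ε := by
  have hν' : 0 < ν' := hnu.pos.trans_le hle
  let Pt := {p : ((H →L[ℂ] H) → H) × ((H →L[ℂ] H) → H) // Good P (CK * ν') k s p.1 p.2}
  let Q : Fin n → Pt → ℝ := fun i p =>
    ‖res P (t i).X (t i).Y (t i).nX (t i).nY p.1.1 p.1.2‖ ^ 2
  suffices h : ∃ p : Pt, ∀ i, Q i p ≤ 2 * ε ^ 2 by
    obtain ⟨p, hp⟩ := h
    refine ⟨p.1.1, p.1.2, p.2, fun i => ?_⟩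
    exact (pow_le_pow_iff_left₀ (norm_nonneg _) (by positivity) two_ne_zero).1
      ((hp i).trans (by nlinarith))
  refine exists_all_le Q (pow_pos hε0 2) ?_ (fun i p => sq_nonneg _) fun m => ?_
  · intro p p' a b ha hb hab
    refine ⟨⟨((a : ℂ) • p.1.1 + (b : ℂ) • p'.1.1, (a : ℂ) • p.1.2 + (b : ℂ) • p'.1.2),
      p.2.comb p'.2 ha hb hab⟩, fun i => ?_⟩
    simp only [Q, res_comb _ _ _ _ _ _ _ _ hab]
    refine (pow_le_pow_left₀ (norm_nonneg _) (norm_add_le _ _) 2).trans ?_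
    rw [norm_smul, norm_smul, Complex.norm_real, Complex.norm_real, Real.norm_of_nonneg ha,
      Real.norm_of_nonneg hb]
    obtain rfl : b = 1 - a := by linarith
    nlinarith [mul_nonneg (mul_nonneg ha hb) (sq_nonneg
      (‖res P (t i).X (t i).Y (t i).nX (t i).nY p.1.1 p.1.2‖ -
        ‖res P (t i).X (t i).Y (t i).nX (t i).nY p'.1.1 p'.1.2‖))]
  · rcases Nat.eq_zero_or_pos (∑ i, m i) with hm | hm
    · refine ⟨⟨(0, 0), good_zero P (mul_nonneg hCK hν'.le) k s⟩, le_of_eq ?_⟩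
      simp [fun i => (Finset.sum_eq_zero_iff.mp hm) i (Finset.mem_univ i)]
    set q : ℕ := (∏ i, (t i).d) * ∏ d ∈ s, max d 1
    have hq : 0 < q := Nat.mul_pos (Finset.prod_pos fun i _ => (t i).pos)
      (Finset.prod_pos fun d _ => lt_max_of_lt_right Nat.one_pos)
    have hdvd : ∀ i, (t i).d ∣ q := fun i =>
      dvd_mul_of_dvd_left (Finset.dvd_prod_of_mem _ (Finset.mem_univ i)) _
    let α := Σ i : Fin n, Fin (m i * (q / (t i).d))
    let sz : α → ℕ := fun a => (t a.1).d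
    set D := Fintype.card (Σ a : α, Fin (sz a))
    let e : (Σ a : α, Fin (sz a)) ≃ Fin D := Fintype.equivFin _
    have hD : D = (∑ i, m i) * q := by
      simp only [D, α, sz, Fintype.card_sigma, Fintype.card_fin, Fintype.sum_sigma,
        Finset.sum_const, Finset.card_univ, smul_eq_mul, Finset.sum_mul, mul_assoc,
        fun i => Nat.div_mul_cancel (hdvd i)]
    have hD0 : 0 < D := hD ▸ Nat.mul_pos hm hq
    have hs : ∀ d ∈ s, 0 < d → d ∣ D := fun d hd hd0 => by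
      rw [hD]
      refine dvd_mul_of_dvd_right (dvd_mul_of_dvd_right ?_ _) _
      have := Finset.dvd_prod_of_mem (fun d => max d 1) hd
      rwa [max_eq_left hd0] at this
    have hsz : ∀ a, 0 < sz a := fun a => (t a.1).pos
    have hvec : ∀ (Z n' : ∀ a, Mat H (sz a)),
        (∀ a, ‖(leftOp (n' a) - leftOp (Z a)) (P.xi (sz a))‖ ≤ ν') →
        ‖(leftOp (blk e n') - leftOp (blk e Z)) (P.xi D)‖ ≤ ν' := by
      intro Z n' h
      refine (pow_le_pow_iff_left₀ (norm_nonneg _) hν'.le two_ne_zero).1 ?_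
      rw [ContinuousLinearMap.sub_apply, xi_blk P e hsz, leftOp_bvec, leftOp_bvec, ← bvec_sub,
        norm_sq_bvec]
      have hsum : (∑ a, ((sz a : ℝ) / D)) = 1 := by
        rw [← Finset.sum_div, ← Nat.cast_sum, show ∑ a, sz a = D by
          simp only [D, Fintype.card_sigma, Fintype.card_fin], div_self (by exact_mod_cast hD0.ne')]
      calc ∑ a, ((sz a : ℝ) / D) * ‖leftOp (n' a) (P.xi (sz a)) - leftOp (Z a) (P.xi (sz a))‖ ^ 2
          ≤ ∑ a, ((sz a : ℝ) / D) * ν' ^ 2 := Finset.sum_le_sum fun a _ =>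
            mul_le_mul_of_nonneg_left (pow_le_pow_left₀ (norm_nonneg _)
              (by simpa using h a) 2) (by positivity)
        _ = ν' ^ 2 := by rw [← Finset.sum_mul, hsum, one_mul]
    obtain ⟨L, Λ, hgood, hres⟩ := stage_one (P := P) hT hCK hK hN hop hnu hle k hD0
      (blk e fun a => (t a.1).X) (blk e fun a => (t a.1).Y)
      (blk e fun a => (t a.1).nX) (blk e fun a => (t a.1).nY)
      (blk_mem e (zero_mem P.M) fun a => (t a.1).hX.memX)
      (blk_mem e (zero_mem P.M) fun a => (t a.1).hY.memX)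
      (blk_mem e (zero_mem P.N) fun a => (t a.1).hX.memn)
      (blk_mem e (zero_mem P.N) fun a => (t a.1).hY.memn)
      (blk_isSymm e fun a => (t a.1).hX.symmX) (blk_isSymm e fun a => (t a.1).hY.symmX)
      (blk_isSymm e fun a => (t a.1).hX.symmn) (blk_isSymm e fun a => (t a.1).hY.symmn)
      (hvec _ _ fun a => (t a.1).hX.vecNear.trans hle₀)
      (hvec _ _ fun a => (t a.1).hY.vecNear.trans hle₀) s hs
    refine ⟨⟨(L, Λ), hgood⟩, ?_⟩
    have hL : L 0 = 0 := by simpa using hgood.linL 0 (zero_mem P.M) 0 (zero_mem P.M) 1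
    have hΛ : Λ 0 = 0 := by
      simpa using hgood.linR 0 (P.mem_Bal.mp (zero_mem P.Bal)) 0 (P.mem_Bal.mp (zero_mem P.Bal)) 1
    have h2 := pow_le_pow_left₀ (norm_nonneg _) (hres.trans hε) 2
    rw [res_blk e hsz _ _ _ _ L Λ hL hΛ, norm_sq_bvec] at h2
    simp only [α, sz, Fintype.sum_sigma] at h2
    replace h2 : ∑ i, ((m i * (q / (t i).d) : ℕ) : ℝ) * (((t i).d : ℝ) / D *
        ‖res P (t i).X (t i).Y (t i).nX (t i).nY L Λ‖ ^ 2) ≤ ε ^ 2 := by
      refine le_of_eq_of_le (Finset.sum_congr rfl fun i _ => ?_) h2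
      show _ = ∑ _x : Fin (m i * (q / (t i).d)), ((t i).d : ℝ) / D *
        ‖res P (t i).X (t i).Y (t i).nX (t i).nY L Λ‖ ^ 2
      rw [Finset.sum_const, Finset.card_univ, Fintype.card_fin, nsmul_eq_mul]
    have hpos : (0 : ℝ) < ∑ i, (m i : ℝ) := by exact_mod_cast hm
    have hq' : (0 : ℝ) < q := by exact_mod_cast hq
    have hterm : ∀ i, ((m i * (q / (t i).d) : ℕ) : ℝ) * (((t i).d : ℝ) / D) =
        (m i : ℝ) / ∑ i, (m i : ℝ) := by
      intro i
      have hd : ((t i).d : ℝ) ≠ 0 := by exact_mod_cast (t i).pos.ne'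
      rw [hD, Nat.cast_mul (m i), Nat.cast_div (hdvd i) hd, Nat.cast_mul (∑ i, m i) q, Nat.cast_sum]
      field_simp
    simp only [← mul_assoc, hterm] at h2
    rw [← div_le_iff₀ hpos]
    refine le_of_eq_of_le ?_ h2
    rw [Finset.sum_div]
    exact Finset.sum_congr rfl fun i _ => (div_mul_eq_mul_div _ _ _).symm

end Vale.Agent.P096.Full.Uniform
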