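import Vale.Agent.P096.Full.Amp

/-!
P096, UNIFORM: block diagonal matrices and tuples.
-/

open scoped InnerProductSpace ComplexConjugate Matrix

namespace Vale.Agent.P096.Full

universe u

variable {H : Type u} [NormedAddCommGroup H] [InnerProductSpace ℂ H] [CompleteSpace H] (P : Pair H)

lemma Pair.mirror_mirror {d : ℕ} (n : Mat H d) : P.mirror (P.mirror n) = n := by
  funext i j
  exact P.conjOp_conjOp _

lemma Pair.rmul_eq_mirror {d : ℕ} (Y₁ Y₂ : Mat H d) :
    rmul Y₁ Y₂ = P.mirror (P.mirror Y₁ * P.mirror Y₂) := by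
  rw [P.mirror_mul, P.mirror_mirror, P.mirror_mirror]

lemma Pair.conjOp_zero : P.conjOp 0 = 0 := by
  ext h; simp

namespace Uniform

variable {D : ℕ} {ι : Type} [Fintype ι] [DecidableEq ι] {sz : ι → ℕ}
  (e : (Σ i, Fin (sz i)) ≃ Fin D)

/-- A block diagonal matrix. -/
def blk (Z : ∀ i, Mat H (sz i)) : Mat H D := Matrix.reindex e e (Matrix.blockDiagonal' Z)

/-- A block diagonal tuple, normalised. -/
noncomputable def bvec (V : ∀ i, Amp H (sz i)) : Amp H D :=
  WithLp.toLp 2 fun p => Matrix.blockDiagonal'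
    (fun i => Matrix.of fun a b => ((Real.sqrt (sz i) / Real.sqrt D : ℝ) : ℂ) • V i (a, b))
    (e.symm p.1) (e.symm p.2)

omit [CompleteSpace H] [Fintype ι] in
theorem blk_eq (Z : ∀ i, Mat H (sz i)) (i : ι) (a b : Fin (sz i)) :
    blk e Z (e ⟨i, a⟩) (e ⟨i, b⟩) = Z i a b := by
  simp [blk, Matrix.blockDiagonal'_apply_eq]

omit [CompleteSpace H] [Fintype ι] in
theorem blk_ne (Z : ∀ i, Mat H (sz i)) {i j : ι} (h : i ≠ j) (a : Fin (sz i)) (b : Fin (sz j)) :
    blk e Z (e ⟨i, a⟩) (e ⟨j, b⟩) = 0 := by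
  simp [blk, Matrix.blockDiagonal'_apply_ne _ _ _ h]

omit [CompleteSpace H] in
theorem bvec_eq (V : ∀ i, Amp H (sz i)) (i : ι) (a b : Fin (sz i)) :
    bvec e V (e ⟨i, a⟩, e ⟨i, b⟩) =
      ((Real.sqrt (sz i) / Real.sqrt D : ℝ) : ℂ) • V i (a, b) := by
  simp [bvec, Matrix.blockDiagonal'_apply_eq]

omit [CompleteSpace H] in
theorem bvec_ne (V : ∀ i, Amp H (sz i)) {i j : ι} (h : i ≠ j) (a : Fin (sz i)) (b : Fin (sz j)) :
    bvec e V (e ⟨i, a⟩, e ⟨j, b⟩) = 0 := by
  simp [bvec, Matrix.blockDiagonal'_apply_ne _ _ _ h]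

omit [Fintype ι] [DecidableEq ι] in
theorem forall_pos {p : Fin D → Fin D → Prop}
    (h₁ : ∀ i a b, p (e ⟨i, a⟩) (e ⟨i, b⟩))
    (h₂ : ∀ i j a b, i ≠ j → p (e ⟨i, a⟩) (e ⟨j, b⟩)) : ∀ x y, p x y := by
  intro x y
  obtain ⟨⟨i, a⟩, rfl⟩ := e.surjective x
  obtain ⟨⟨j, b⟩, rfl⟩ := e.surjective y
  by_cases h : i = j
  · subst h; exact h₁ i a b
  · exact h₂ i j a b h

omit [CompleteSpace H] [Fintype ι] in
theorem blk_mem {S : Set (H →L[ℂ] H)} (h0 : (0 : H →L[ℂ] H) ∈ S) {Z : ∀ i, Mat H (sz i)}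
    (hZ : ∀ i a b, Z i a b ∈ S) (x y : Fin D) : blk e Z x y ∈ S :=
  forall_pos e (p := fun x y => blk e Z x y ∈ S) (fun i a b => by rw [blk_eq]; exact hZ i a b)
    (fun i j a b h => by rw [blk_ne e Z h]; exact h0) x y

omit [CompleteSpace H] in
theorem blk_mul (Y Z : ∀ i, Mat H (sz i)) : blk e Y * blk e Z = blk e (fun i => Y i * Z i) := by
  rw [blk, blk, blk, Matrix.reindex_apply, Matrix.reindex_apply, Matrix.reindex_apply,
    Matrix.submatrix_mul_equiv, Matrix.blockDiagonal'_mul]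

omit [CompleteSpace H] [Fintype ι] in
theorem blk_one : blk e (fun i => (1 : Mat H (sz i))) = 1 := by
  rw [blk, Matrix.reindex_apply, show Matrix.blockDiagonal' (fun i => (1 : Mat H (sz i))) = 1 from
    Matrix.blockDiagonal'_one, Matrix.submatrix_one_equiv]

omit [Fintype ι] in
theorem blk_star (Z : ∀ i, Mat H (sz i)) : star (blk e Z) = blk e (fun i => star (Z i)) := by
  simp [blk, Matrix.star_eq_conjTranspose, Matrix.conjTranspose_submatrix,
    Matrix.blockDiagonal'_conjTranspose]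

omit [Fintype ι] in
theorem blk_isSymm [Fintype ι] {Z : ∀ i, Mat H (sz i)} (h : ∀ i, IsSymm (Z i)) :
    IsSymm (blk e Z) :=
  ⟨by rw [blk_star]; exact congrArg _ (funext fun i => (h i).1),
    by rw [blk_mul, show (fun i => Z i * Z i) = fun i => 1 from funext fun i => (h i).2, blk_one]⟩

omit [Fintype ι] in
theorem mirror_blk (n : ∀ i, Mat H (sz i)) :
    P.mirror (blk e n) = blk e (fun i => P.mirror (n i)) := by
  ext x y : 2
  revert x y
  refine forall_pos e (fun i a b => ?_) fun i j a b h => ?_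
  · rw [blk_eq]; simp only [Pair.mirror]; rw [blk_eq]
  · rw [blk_ne e _ h]; simp only [Pair.mirror]; rw [blk_ne e _ (Ne.symm h), P.conjOp_zero]

include P in
theorem rmul_blk (Y Z : ∀ i, Mat H (sz i)) :
    rmul (blk e Y) (blk e Z) = blk e (fun i => rmul (Y i) (Z i)) := by
  simp only [P.rmul_eq_mirror, mirror_blk, blk_mul]

omit [CompleteSpace H] in
theorem leftOp_bvec (Z : ∀ i, Mat H (sz i)) (V : ∀ i, Amp H (sz i)) :
    leftOp (blk e Z) (bvec e V) = bvec e (fun i => leftOp (Z i) (V i)) := by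
  refine Amp.ext' fun x y => ?_
  revert x y
  refine forall_pos e (fun i a b => ?_) fun i j a b h => ?_
  · rw [leftOp_apply, bvec_eq, leftOp_apply, ← e.sum_comp, Fintype.sum_sigma,
      Finset.sum_eq_single i]
    · rw [Finset.smul_sum]
      exact Finset.sum_congr rfl fun c _ => by rw [blk_eq, bvec_eq, map_smul]
    · exact fun l _ hl => Finset.sum_eq_zero fun c _ => by
        rw [blk_ne e _ (Ne.symm hl)]; simp
    · simp
  · rw [leftOp_apply, bvec_ne e _ h, ← e.sum_comp, Fintype.sum_sigma]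
    refine Finset.sum_eq_zero fun l _ => Finset.sum_eq_zero fun c _ => ?_
    by_cases hl : i = l
    · subst hl; rw [bvec_ne e _ h, map_zero]
    · rw [blk_ne e _ hl]; simp

omit [CompleteSpace H] in
theorem rightOp_bvec (Z : ∀ i, Mat H (sz i)) (V : ∀ i, Amp H (sz i)) :
    rightOp (blk e Z) (bvec e V) = bvec e (fun i => rightOp (Z i) (V i)) := by
  refine Amp.ext' fun x y => ?_
  revert x y
  refine forall_pos e (fun i a b => ?_) fun i j a b h => ?_
  · rw [rightOp_apply, bvec_eq, rightOp_apply, ← e.sum_comp, Fintype.sum_sigma,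
      Finset.sum_eq_single i]
    · rw [Finset.smul_sum]
      exact Finset.sum_congr rfl fun c _ => by rw [blk_eq, bvec_eq, map_smul]
    · exact fun l _ hl => Finset.sum_eq_zero fun c _ => by rw [blk_ne e _ hl]; simp
    · simp
  · rw [rightOp_apply, bvec_ne e _ h, ← e.sum_comp, Fintype.sum_sigma]
    refine Finset.sum_eq_zero fun l _ => Finset.sum_eq_zero fun c _ => ?_
    by_cases hl : l = j
    · subst hl; rw [bvec_ne e _ h, map_zero]
    · rw [blk_ne e _ hl]; simp

omit [CompleteSpace H] in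
theorem bvec_add (V W : ∀ i, Amp H (sz i)) :
    bvec e (fun i => V i + W i) = bvec e V + bvec e W := by
  refine Amp.ext' fun x y => ?_
  revert x y
  refine forall_pos e (fun i a b => ?_) fun i j a b h => ?_ <;>
    simp [bvec_eq, bvec_ne, smul_add, *]

omit [CompleteSpace H] in
theorem bvec_sub (V W : ∀ i, Amp H (sz i)) :
    bvec e (fun i => V i - W i) = bvec e V - bvec e W := by
  refine Amp.ext' fun x y => ?_
  revert x y
  refine forall_pos e (fun i a b => ?_) fun i j a b h => ?_ <;>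
    simp [bvec_eq, bvec_ne, smul_sub, *]

omit [CompleteSpace H] in
theorem norm_sq_bvec (V : ∀ i, Amp H (sz i)) :
    ‖bvec e V‖ ^ 2 = ∑ i, ((sz i : ℝ) / D) * ‖V i‖ ^ 2 := by
  rw [PiLp.norm_sq_eq_of_L2, Fintype.sum_prod_type, ← e.sum_comp, Fintype.sum_sigma]
  refine Finset.sum_congr rfl fun i _ => ?_
  rw [PiLp.norm_sq_eq_of_L2, Fintype.sum_prod_type, Finset.mul_sum]
  refine Finset.sum_congr rfl fun a _ => ?_
  rw [← e.sum_comp, Fintype.sum_sigma, Finset.sum_eq_single i, Finset.mul_sum]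
  · refine Finset.sum_congr rfl fun b _ => ?_
    rw [bvec_eq, norm_smul, mul_pow, Complex.norm_real, Real.norm_eq_abs, sq_abs, div_pow,
      Real.sq_sqrt (Nat.cast_nonneg _), Real.sq_sqrt (Nat.cast_nonneg _)]
  · exact fun j _ hj => Finset.sum_eq_zero fun b _ => by simp [bvec_ne e V (Ne.symm hj)]
  · simp

omit [CompleteSpace H] in
theorem vecOf_blk (hsz : ∀ i, 0 < sz i) (F : (H →L[ℂ] H) → H) (hF : F 0 = 0)
    (Z : ∀ i, Mat H (sz i)) :
    vecOf (fun x y => F (blk e Z x y)) = bvec e (fun i => vecOf fun a b => F (Z i a b)) := by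
  refine Amp.ext' fun x y => ?_
  revert x y
  refine forall_pos e (fun i a b => ?_) fun i j a b h => ?_
  · rw [vecOf_apply, bvec_eq, vecOf_apply, blk_eq, smul_smul, ← Complex.ofReal_mul,
      div_mul_eq_mul_div,
      mul_inv_cancel₀ (Real.sqrt_ne_zero'.mpr (by exact_mod_cast hsz i)), one_div]
  · rw [vecOf_apply, bvec_ne e _ h, blk_ne e _ h, hF, smul_zero]

theorem xi_blk (hsz : ∀ i, 0 < sz i) : P.xi D = bvec e (fun i => P.xi (sz i)) := by
  have h : ∀ d, P.xi d = vecOf fun a b => (1 : Mat H d) a b P.ξ := fun d =>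
    congrArg vecOf (funext fun a => funext fun b => by
      by_cases h : a = b <;> simp [h, Matrix.one_apply])
  simp only [h, ← blk_one (H := H) e]
  exact vecOf_blk e hsz (fun T => T P.ξ) rfl _

omit [CompleteSpace H] in
theorem norm_leftOp_blk_le {Z : ∀ i, Mat H (sz i)} {c : ℝ} (hc : 0 ≤ c)
    (hZ : ∀ i, ‖leftOp (Z i)‖ ≤ c) : ‖leftOp (blk e Z)‖ ≤ c := by
  refine norm_leftOp_le_of_matBdd hc fun η => ?_
  rw [← e.sum_comp, ← e.sum_comp (fun x => ‖η x‖ ^ 2), Fintype.sum_sigma, Fintype.sum_sigma,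
    Finset.mul_sum]
  refine Finset.sum_le_sum fun i _ => ?_
  refine le_trans (le_of_eq (Finset.sum_congr rfl fun a _ => ?_))
    ((matBdd_of_leftOp (X := Z i) (fun b => η (e ⟨i, b⟩))).trans ?_)
  · rw [← e.sum_comp, Fintype.sum_sigma, Finset.sum_eq_single i]
    · simp only [blk_eq]
    · exact fun j _ hj => Finset.sum_eq_zero fun b _ => by simp [blk_ne e Z (Ne.symm hj)]
    · simp
  · exact mul_le_mul_of_nonneg_right (pow_le_pow_left₀ (norm_nonneg (leftOp (Z i))) (hZ i) 2)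
      (Finset.sum_nonneg fun _ _ => sq_nonneg _)

end Uniform

end Vale.Agent.P096.Full
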