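import Vale.Agent.P096.Full.Amp

/-!
P096, UNIFORM: one finite group of `Pair.G k` times the signed permutations, and the consequence
of its equivariance.
-/

open scoped InnerProductSpace ComplexConjugate Matrix

namespace Vale.Agent.P096.Full.Uniform

universe u

variable {H : Type u} [NormedAddCommGroup H] [InnerProductSpace ℂ H] [CompleteSpace H] (P : Pair H)
  {D : ℕ}

/-- A scalar matrix times one operator. -/
def tens (A : Matrix (Fin D) (Fin D) ℂ) (g : H →L[ℂ] H) : Mat H D := A.map (· • g)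

/-- One operator at one position. -/
def unitAt (i j : Fin D) (z : H →L[ℂ] H) : Mat H D := Matrix.single i j z

omit [CompleteSpace H] in
theorem tens_apply (A : Matrix (Fin D) (Fin D) ℂ) (g : H →L[ℂ] H) (i j : Fin D) :
    tens A g i j = A i j • g := rfl

omit [CompleteSpace H] in
theorem tens_mul (A B : Matrix (Fin D) (Fin D) ℂ) (g h : H →L[ℂ] H) :
    tens (A * B) (g * h) = tens A g * tens B h := by
  ext i j : 2
  simp only [tens_apply, Matrix.mul_apply, Finset.sum_smul, smul_mul_smul_comm]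

omit [CompleteSpace H] in
theorem tens_one_one : tens (1 : Matrix (Fin D) (Fin D) ℂ) (1 : H →L[ℂ] H) = 1 := by
  ext i j : 2
  by_cases h : i = j <;> simp [tens_apply, Matrix.one_apply, h]

theorem star_tens (A : Matrix (Fin D) (Fin D) ℂ) (g : H →L[ℂ] H) :
    star (tens A g) = tens (star A) (star g) := by
  ext i j : 2
  simp only [tens_apply, Matrix.star_apply, star_smul]

omit [CompleteSpace H] in
theorem tens_add (A B : Matrix (Fin D) (Fin D) ℂ) (g : H →L[ℂ] H) :
    tens (A + B) g = tens A g + tens B g := by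
  ext i j : 2
  simp [tens_apply, add_smul]

omit [CompleteSpace H] in
theorem tens_smul (c : ℂ) (A : Matrix (Fin D) (Fin D) ℂ) (g : H →L[ℂ] H) :
    tens (c • A) g = c • tens A g := by
  ext i j : 2
  simp [tens_apply, mul_smul]

/-- The signed permutation matrices. -/
abbrev Mon (D : ℕ) : Type := Matrix.orthogonalGroup (Fin D) ℤ

theorem Mon.entry_abs_le (A : Mon D) (i j : Fin D) : |(A : Matrix (Fin D) (Fin D) ℤ) i j| ≤ 1 := by
  have h := congr_fun₂ ((Matrix.mem_orthogonalGroup_iff (n := Fin D) (R := ℤ)).mp A.2) i i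
  rw [Matrix.mul_apply, Matrix.one_apply_eq] at h
  simp only [Matrix.transpose_apply] at h
  have hle : (A : Matrix (Fin D) (Fin D) ℤ) i j * (A : Matrix (Fin D) (Fin D) ℤ) i j ≤ 1 := by
    rw [← h]
    exact Finset.single_le_sum (f := fun l => (A : Matrix (Fin D) (Fin D) ℤ) i l *
      (A : Matrix (Fin D) (Fin D) ℤ) i l) (fun l _ => mul_self_nonneg _) (Finset.mem_univ j)
  exact abs_le.mpr ⟨by nlinarith, by nlinarith⟩

instance : Finite (Mon D) :=
  Finite.of_injective (fun A : Mon D => fun i j =>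
    (⟨(A : Matrix (Fin D) (Fin D) ℤ) i j, abs_le.mp (Mon.entry_abs_le A i j)⟩ :
      Set.Icc (-1 : ℤ) 1)) fun A B h => Subtype.ext (Matrix.ext fun i j =>
        congrArg Subtype.val (congr_fun₂ h i j))

/-- A signed permutation as a complex matrix. -/
def mat (A : Mon D) : Matrix (Fin D) (Fin D) ℂ :=
  (A : Matrix (Fin D) (Fin D) ℤ).map (Int.castRingHom ℂ)

theorem mat_one : mat (1 : Mon D) = 1 := by simp [mat]

theorem mat_mul (A B : Mon D) : mat (A * B) = mat A * mat B := Matrix.map_mul

theorem mat_inv (A : Mon D) : mat A⁻¹ = star (mat A) := by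
  ext i j
  simp only [mat, Matrix.map_apply, Matrix.star_apply, Matrix.UnitaryGroup.inv_apply, star_trivial]
  simp

/-- The level `k` as a group. -/
def Lev (k : ℕ) : Type u := {g : H →L[ℂ] H // g ∈ P.G k}

noncomputable instance (k : ℕ) : Fintype (Lev P k) :=
  inferInstanceAs (Fintype {g : H →L[ℂ] H // g ∈ P.G k})

noncomputable instance (k : ℕ) : Group (Lev P k) where
  mul g h := ⟨g.1 * h.1, P.G_mul k _ g.2 _ h.2⟩
  one := ⟨1, P.G_one k⟩
  inv g := ⟨star g.1, P.G_star k _ g.2⟩
  mul_assoc _ _ _ := Subtype.ext (mul_assoc _ _ _)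
  one_mul _ := Subtype.ext (one_mul _)
  mul_one _ := Subtype.ext (mul_one _)
  inv_mul_cancel g := Subtype.ext (P.G_mem k _ g.2).2.2.1

/-- The group of the test. -/
abbrev Idx (k D : ℕ) : Type u := Lev P k × Mon D

noncomputable instance (k : ℕ) : Fintype (Idx P k D) := Fintype.ofFinite _

/-- The group on the left, as matrices. -/
def lmat {k : ℕ} (x : Idx P k D) : Mat H D := tens (mat x.2) x.1.1

/-- The group on the right, as matrices. -/
noncomputable def rmat {k : ℕ} (x : Idx P k D) : Mat H D :=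
  tens (mat x.2) (P.conjOp (star x.1.1))

theorem lmat_mem {k : ℕ} (x : Idx P k D) (i j : Fin D) : lmat P x i j ∈ P.M :=
  SMulMemClass.smul_mem _ (P.G_mem k _ x.1.2).1

theorem rmat_mem {k : ℕ} (x : Idx P k D) (i j : Fin D) : rmat P x i j ∈ P.Bal :=
  SMulMemClass.smul_mem _ (P.mem_Bal.mpr ⟨_, star_mem (P.G_mem k _ x.1.2).2.1, rfl⟩)

/-- The left representation. -/
noncomputable def aHom (k : ℕ) : Idx P k D →* (Amp H D →L[ℂ] Amp H D) where
  toFun x := leftOp (lmat P x)
  map_one' := by
    show leftOp (tens (mat (1 : Mon D)) (1 : H →L[ℂ] H)) = 1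
    rw [mat_one, tens_one_one, leftOp_one]
  map_mul' x y := by
    show leftOp (tens (mat (x.2 * y.2)) (x.1.1 * y.1.1)) = _
    rw [mat_mul, tens_mul, leftOp_mul]; rfl

theorem rmul_tens (A B : Matrix (Fin D) (Fin D) ℂ) (g h : H →L[ℂ] H) :
    rmul (tens A g) (tens B h) = tens (B * A) (g * h) := by
  ext i j : 2
  simp only [rmul, tens_apply, Matrix.mul_apply, Finset.sum_smul, smul_mul_smul_comm,
    mul_comm (A _ _)]

theorem rightOp_rmat_mul {k : ℕ} (x y : Idx P k D) :
    rightOp (rmat P (x * y)) = rightOp (rmat P y) * rightOp (rmat P x) := by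
  rw [rightOp_mul]
  show rightOp (tens (mat (x.2 * y.2)) (P.conjOp (star (x.1.1 * y.1.1)))) = _
  rw [mat_mul, star_mul, P.conjOp_mul, ← rmul_tens]; rfl

theorem rightOp_rmat_one {k : ℕ} : rightOp (rmat P (1 : Idx P k D)) = 1 := by
  show rightOp (tens (mat (1 : Mon D)) (P.conjOp (star (1 : H →L[ℂ] H)))) = 1
  rw [mat_one, star_one, P.conjOp_one, tens_one_one, rightOp_one]

theorem star_lmat {k : ℕ} (x : Idx P k D) : star (leftOp (lmat P x)) = leftOp (lmat P x⁻¹) := by
  rw [star_leftOp, lmat, star_tens, ← mat_inv]; rfl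

theorem star_rmat {k : ℕ} (x : Idx P k D) : star (rightOp (rmat P x)) = rightOp (rmat P x⁻¹) := by
  rw [star_rightOp, rmat, star_tens, P.star_conjOp, ← mat_inv]; rfl

theorem lmat_comm {k : ℕ} (x : Idx P k D) {Y : Mat H D} (hY : ∀ i j, Y i j ∈ P.B) :
    leftOp (lmat P x) * rightOp Y = rightOp Y * leftOp (lmat P x) :=
  commute_leftOp_rightOp fun i j l m => by
    rw [lmat, tens_apply, smul_mul_assoc, mul_smul_comm,
      P.comm_N_B (P.G_mem k _ x.1.2).2.1 (hY l m)]

theorem rmat_comm {k : ℕ} (x : Idx P k D) {X : Mat H D} (hX : ∀ i j, X i j ∈ P.M) :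
    rightOp (rmat P x) * leftOp X = leftOp X * rightOp (rmat P x) :=
  (commute_leftOp_rightOp fun i j l m => by
    rw [rmat, tens_apply, smul_mul_assoc, mul_smul_comm,
      P.comm_M_conjOp (hX i j) (star_mem (P.G_mem k _ x.1.2).1)]).symm

theorem lmat_xi {k : ℕ} (x : Idx P k D) :
    leftOp (lmat P x) (P.xi D) = rightOp (rmat P x) (P.xi D) :=
  Amp.ext' fun i j => by
    rw [leftOp_apply, rightOp_apply, Finset.sum_eq_single j, Finset.sum_eq_single i] <;>
      simp +contextual [lmat, rmat, tens_apply, eq_comm]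
    rw [P.J_xi, P.J_M _ (star_mem (P.G_mem k _ x.1.2).1), star_star]

/-- The span of the signed permutations is everything. -/
theorem span_mat : Submodule.span ℂ (Set.range (mat (D := D))) = ⊤ := by
  rw [eq_top_iff]
  rintro M -
  rw [Matrix.matrix_eq_sum_single M]
  refine Submodule.sum_mem _ fun i _ => Submodule.sum_mem _ fun j _ => ?_
  rw [show Matrix.single i j (M i j) = M i j • Matrix.single i j (1 : ℂ) by
    rw [Matrix.smul_single, smul_eq_mul, mul_one]]
  refine Submodule.smul_mem _ _ ?_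
  have hperm : ∀ σ : Equiv.Perm (Fin D), σ.permMatrix ℤ ∈ Matrix.orthogonalGroup (Fin D) ℤ :=
    fun σ => by
      rw [Matrix.mem_orthogonalGroup_iff, Matrix.transpose_permMatrix, ← Matrix.permMatrix_mul]
      simp
  set ε : Fin D → ℤ := Function.update 1 i (-1)
  have hε : Matrix.diagonal ε ∈ Matrix.orthogonalGroup (Fin D) ℤ := by
    rw [Matrix.mem_orthogonalGroup_iff, Matrix.diagonal_transpose,
      Matrix.diagonal_mul_diagonal, ← Matrix.diagonal_one]
    congr 1
    funext l
    by_cases h : l = i <;> simp [ε, h]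
  set p : Mon D := ⟨_, hperm (Equiv.swap i j)⟩
  set e : Mon D := ⟨_, hε⟩
  have hkey : Matrix.single i j (1 : ℂ) = (2 : ℂ)⁻¹ • (mat p - mat (e * p)) := by
    ext a b
    simp only [Matrix.smul_apply, Matrix.sub_apply, mat, e, p]
    simp only [Matrix.map_apply, Matrix.UnitaryGroup.mul_val, Matrix.diagonal_mul]
    by_cases ha : a = i
    · subst ha
      by_cases hb : b = j <;>
        simp [ε, Equiv.Perm.permMatrix, PEquiv.toMatrix_apply, hb, Ne.symm] <;> norm_num
    · simp [ε, ha, Matrix.single_apply_of_row_ne (Ne.symm ha)]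
  rw [hkey]
  exact Submodule.smul_mem _ _ (Submodule.sub_mem _ (Submodule.subset_span ⟨p, rfl⟩)
    (Submodule.subset_span ⟨e * p, rfl⟩))

end Vale.Agent.P096.Full.Uniform
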