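import Vale.Agent.P096.Full.Uniform.Group

/-!
P096, UNIFORM: maps equivariant for the group act entrywise.
-/

open scoped InnerProductSpace ComplexConjugate Matrix

namespace Vale.Agent.P096.Full.Uniform

universe u

variable {H : Type u} [NormedAddCommGroup H] [InnerProductSpace ℂ H] [CompleteSpace H] (P : Pair H)
  {D : ℕ}

omit [CompleteSpace H] in
theorem leftOp_unitAt_apply (i o : Fin D) (v : Amp H D) (p q : Fin D) :
    leftOp (unitAt i o (1 : H →L[ℂ] H)) v (p, q) = if p = i then v (o, q) else 0 := by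
  rw [leftOp_apply, Finset.sum_eq_single o] <;>
    simp +contextual [unitAt, Matrix.single_apply, eq_comm]
  split_ifs <;> simp_all

omit [CompleteSpace H] in
theorem rightOp_unitAt_apply (o k : Fin D) (v : Amp H D) (p q : Fin D) :
    rightOp (unitAt o k (1 : H →L[ℂ] H)) v (p, q) = if q = k then v (p, o) else 0 := by
  rw [rightOp_apply, Finset.sum_eq_single o] <;>
    simp +contextual [unitAt, Matrix.single_apply, eq_comm]
  split_ifs <;> simp_all

omit [CompleteSpace H] in
theorem tens_single (i o : Fin D) :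
    tens (Matrix.single i o (1 : ℂ)) (1 : H →L[ℂ] H) = unitAt i o 1 := by
  ext a b : 2
  simp only [tens_apply, unitAt, Matrix.single_apply]
  split_ifs <;> simp

theorem unitAt_mem (S : StarSubalgebra ℂ (H →L[ℂ] H)) (o o' : Fin D) {z : H →L[ℂ] H} (hz : z ∈ S)
    (i j : Fin D) : unitAt o o' z i j ∈ S := by
  rw [unitAt, Matrix.single_apply]
  split_ifs
  exacts [hz, zero_mem S]

theorem tens_mem (S : StarSubalgebra ℂ (H →L[ℂ] H)) (A : Matrix (Fin D) (Fin D) ℂ) (i j : Fin D) :
    tens A (1 : H →L[ℂ] H) i j ∈ S :=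
  SMulMemClass.smul_mem _ (one_mem S)

theorem mul_entry_mem {S : StarSubalgebra ℂ (H →L[ℂ] H)} {X Y : Mat H D}
    (hX : ∀ i j, X i j ∈ S) (hY : ∀ i j, Y i j ∈ S) (i j : Fin D) : (X * Y) i j ∈ S := by
  rw [Matrix.mul_apply]
  exact sum_mem fun l _ => mul_mem (hX i l) (hY l j)

omit [CompleteSpace H] in
theorem rmul_scalar (A B : Matrix (Fin D) (Fin D) ℂ) (Y : Mat H D) :
    rmul (rmul (tens B 1) Y) (tens A 1) = tens A 1 * Y * tens B 1 := by
  refine Matrix.ext fun m k => ?_
  simp only [rmul, tens_apply, Matrix.mul_apply, smul_mul_assoc, mul_smul_comm,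
    one_mul, mul_one, Finset.smul_sum, smul_smul]
  rw [Finset.sum_comm]
  refine Finset.sum_congr rfl fun l _ => Finset.sum_congr rfl fun j _ => ?_
  rw [mul_comm]

/-- A linear map on matrices over `S` with the scalar equivariance acts entrywise. -/
theorem shape_of (S : StarSubalgebra ℂ (H →L[ℂ] H)) (F : Mat H D → Amp H D)
    (hlin : ∀ X Y : Mat H D, (∀ i j, X i j ∈ S) → (∀ i j, Y i j ∈ S) → ∀ c : ℂ,
      F (c • X + Y) = c • F X + F Y)
    (hlaw : ∀ (σ τ : Mon D) (X : Mat H D), (∀ i j, X i j ∈ S) →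
      F (tens (mat σ) 1 * X * tens (mat τ) 1) =
        leftOp (tens (mat σ) 1) (rightOp (tens (mat τ) 1) (F X)))
    (o : Fin D) (X : Mat H D) (hX : ∀ i j, X i j ∈ S) (p q : Fin D) :
    F X (p, q) = F (unitAt o o (X p q)) (o, o) := by
  have h0 : ∀ i j : Fin D, (0 : Mat H D) i j ∈ S := fun i j => zero_mem S
  have hF0 : F 0 = 0 := by simpa using hlin 0 0 h0 h0 1
  have hadd : ∀ A B : Mat H D, (∀ i j, A i j ∈ S) → (∀ i j, B i j ∈ S) → F (A + B) = F A + F B :=
    fun A B hA hB => by simpa using hlin A B hA hB 1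
  have hsmul : ∀ (c : ℂ) (A : Mat H D), (∀ i j, A i j ∈ S) → F (c • A) = c • F A :=
    fun c A hA => by simpa [hF0] using hlin A 0 hA h0 c
  have hm : ∀ (A B : Matrix (Fin D) (Fin D) ℂ) (Z : Mat H D), (∀ i j, Z i j ∈ S) →
      ∀ i j, (tens A (1 : H →L[ℂ] H) * Z * tens B (1 : H →L[ℂ] H) : Mat H D) i j ∈ S := fun A B Z hZ =>
    mul_entry_mem (mul_entry_mem (tens_mem S A) hZ) (tens_mem S B)
  have hext : ∀ (A B : Matrix (Fin D) (Fin D) ℂ) (Z : Mat H D), (∀ i j, Z i j ∈ S) →
      F (tens A 1 * Z * tens B 1) = leftOp (tens A 1) (rightOp (tens B 1) (F Z)) := by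
    intro A B Z hZ
    have hA : A ∈ Submodule.span ℂ (Set.range (mat (D := D))) := span_mat ▸ Submodule.mem_top
    have hB : B ∈ Submodule.span ℂ (Set.range (mat (D := D))) := span_mat ▸ Submodule.mem_top
    induction hA using Submodule.span_induction generalizing B with
    | mem A hA =>
      obtain ⟨σ, rfl⟩ := hA
      induction hB using Submodule.span_induction with
      | mem B hB => obtain ⟨τ, rfl⟩ := hB; exact hlaw σ τ Z hZ
      | zero =>
        have hz : tens (0 : Matrix (Fin D) (Fin D) ℂ) (1 : H →L[ℂ] H) = 0 := by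
          ext a b : 2; simp [tens_apply]
        simp [hz, hF0, show rightOp (0 : Mat H D) = 0 from ContinuousLinearMap.ext fun v => Amp.ext' fun i k => by simp]
      | add B B' _ _ ih ih' =>
        rw [tens_add, mul_add, hadd _ _ (hm _ _ Z hZ) (hm _ _ Z hZ), ih, ih', rightOp_add,
          ContinuousLinearMap.add_apply, map_add]
      | smul c B _ ih =>
        rw [tens_smul, mul_smul_comm, hsmul c _ (hm _ _ Z hZ), ih, rightOp_smul,
          ContinuousLinearMap.smul_apply, map_smul]
    | zero =>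
      have hz : tens (0 : Matrix (Fin D) (Fin D) ℂ) (1 : H →L[ℂ] H) = 0 := by
        ext a b : 2; simp [tens_apply]
      simp [hz, hF0, leftOp_zero]
    | add A A' _ _ ih ih' =>
      rw [tens_add, add_mul, add_mul, hadd _ _ (hm _ _ Z hZ) (hm _ _ Z hZ), ih B hB, ih' B hB,
        leftOp_add, ContinuousLinearMap.add_apply]
    | smul c A _ ih =>
      rw [tens_smul, smul_mul_assoc, smul_mul_assoc, hsmul c _ (hm _ _ Z hZ), ih B hB, leftOp_smul,
        ContinuousLinearMap.smul_apply]
  have hterm : ∀ i k : Fin D,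
      F (Matrix.single i k (X i k)) = leftOp (unitAt i o 1) (rightOp (unitAt o k 1)
        (F (unitAt o o (X i k)))) := fun i k => by
    rw [← tens_single i o, ← tens_single o k, ← hext _ _ _ (unitAt_mem S o o (hX i k))]
    simp [tens_single, unitAt, Matrix.single_mul_single_same]
  have hsum : ∀ {α : Type} (s : Finset α) (f : α → Mat H D), (∀ a, ∀ i j, f a i j ∈ S) →
      F (∑ a ∈ s, f a) = ∑ a ∈ s, F (f a) := by
    intro α s f hf
    classical
    induction s using Finset.induction_on with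
    | empty => simpa using hF0
    | insert a s ha ih =>
      rw [Finset.sum_insert ha, Finset.sum_insert ha, hadd _ _ (hf a) (fun i j => by
        rw [Matrix.sum_apply]; exact sum_mem fun b _ => hf b i j), ih]
  have hsingle : ∀ a b i j : Fin D, Matrix.single a b (X a b) i j ∈ S := fun a b =>
    unitAt_mem S a b (hX a b)
  conv_lhs => rw [Matrix.matrix_eq_sum_single X, ← Fintype.sum_prod_type']
  rw [hsum Finset.univ (fun a : Fin D × Fin D => Matrix.single a.1 a.2 (X a.1 a.2))
    fun a => hsingle a.1 a.2]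
  rw [WithLp.ofLp_sum, Finset.sum_apply, Finset.sum_eq_single (p, q)]
  · rw [hterm, leftOp_unitAt_apply, if_pos rfl, rightOp_unitAt_apply, if_pos rfl]
  · rintro ⟨i, k⟩ - hne
    rw [hterm, leftOp_unitAt_apply]
    split_ifs with hp
    · rw [rightOp_unitAt_apply, if_neg]
      exact fun hq => hne (by rw [hp, hq])
    · rfl
  · simp

open Classical in
/-- The map read at one position. -/
noncomputable def entryMap (S : StarSubalgebra ℂ (H →L[ℂ] H)) (F : Mat H D → Amp H D) (o : Fin D)
    (z : H →L[ℂ] H) : H :=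
  if z ∈ S then ((Real.sqrt D : ℝ) : ℂ) • F (unitAt o o z) (o, o) else 0

theorem mapVec_entryMap (S : StarSubalgebra ℂ (H →L[ℂ] H)) (F : Mat H D → Amp H D)
    (hlin : ∀ X Y : Mat H D, (∀ i j, X i j ∈ S) → (∀ i j, Y i j ∈ S) → ∀ c : ℂ,
      F (c • X + Y) = c • F X + F Y)
    (hlaw : ∀ (σ τ : Mon D) (X : Mat H D), (∀ i j, X i j ∈ S) →
      F (tens (mat σ) 1 * X * tens (mat τ) 1) =
        leftOp (tens (mat σ) 1) (rightOp (tens (mat τ) 1) (F X)))
    (o : Fin D) (X : Mat H D) (hX : ∀ i j, X i j ∈ S) :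
    mapVec (entryMap S F o) X = F X := by
  refine Amp.ext' fun i k => ?_
  rw [mapVec, vecOf_apply, entryMap, if_pos (hX i k), smul_smul, ← Complex.ofReal_mul,
    inv_mul_cancel₀ (Real.sqrt_ne_zero'.mpr (by exact_mod_cast o.pos)), Complex.ofReal_one,
    one_smul, shape_of S F hlin hlaw o X hX i k]

theorem entryMap_linear (S : StarSubalgebra ℂ (H →L[ℂ] H)) (F : Mat H D → Amp H D)
    (hlin : ∀ X Y : Mat H D, (∀ i j, X i j ∈ S) → (∀ i j, Y i j ∈ S) → ∀ c : ℂ,
      F (c • X + Y) = c • F X + F Y)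
    (o : Fin D) {x y : H →L[ℂ] H} (hx : x ∈ S) (hy : y ∈ S) (c : ℂ) :
    entryMap S F o (c • x + y) = c • entryMap S F o x + entryMap S F o y := by
  rw [entryMap, entryMap, entryMap, if_pos hx, if_pos hy,
    if_pos (add_mem (SMulMemClass.smul_mem c hx) hy),
    show unitAt o o (c • x + y) = c • unitAt o o x + unitAt o o y by
      rw [unitAt, unitAt, unitAt, Matrix.single_add, ← Matrix.smul_single],
    hlin _ _ (unitAt_mem S o o hx) (unitAt_mem S o o hy), PiLp.add_apply, PiLp.smul_apply,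
    smul_add, smul_comm]

end Vale.Agent.P096.Full.Uniform
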