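import Vale.Agent.P096.Full.Uniform.Weak
import Vale.Agent.P096.Full.Uniform.Block
import Vale.Agent.P096.Full.Uniform.One

/-!
P096, UNIFORM: one pair of maps for finitely many tests at one level.
-/

open scoped InnerProductSpace ComplexConjugate Matrix

namespace Vale.Agent.P096.Full.Uniform

universe u

variable {H : Type u} [NormedAddCommGroup H] [InnerProductSpace ℂ H] [CompleteSpace H] (P : Pair H)

/-- Two mirrored pairs of one size. -/
structure Case (C₀ ν : ℝ) where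
  d : ℕ
  pos : 0 < d
  X : Mat H d
  Y : Mat H d
  nX : Mat H d
  nY : Mat H d
  hX : P.VecMirrored C₀ ν X nX
  hY : P.VecMirrored C₀ ν Y nY

/-- The residual of two maps at two mirrored pairs. -/
noncomputable def res {d : ℕ} (X Y nX nY : Mat H d) (L Λ : (H →L[ℂ] H) → H) : Amp H d :=
  (leftOp X * rightOp (P.mirror nY) - rightOp (P.mirror nY) * leftOp X) (P.xi d)
    + mapVec L (X * Y) + mapVec Λ (rmul (P.mirror nY) (P.mirror nX))
    - leftOp X (mapVec L Y + mapVec Λ (P.mirror nY))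
    - rightOp (P.mirror nY) (mapVec L X + mapVec Λ (P.mirror nX))
    + leftOp X (rightOp (P.mirror nY) (mapVec L 1 + mapVec Λ 1))

/-- Maps with the properties asked at level `k` and for the sizes in `s`. -/
structure Good (r : ℝ) (k : ℕ) (s : Finset ℕ) (L Λ : (H →L[ℂ] H) → H) : Prop where
  linL : ∀ x ∈ P.M, ∀ y ∈ P.M, ∀ c : ℂ, L (c • x + y) = c • L x + L y
  linR : ∀ x ∈ P.B, ∀ y ∈ P.B, ∀ c : ℂ, Λ (c • x + y) = c • Λ x + Λ y
  outL : ∀ x, x ∉ P.M → L x = 0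
  outR : ∀ x, x ∉ P.B → Λ x = 0
  cbL : ∀ d ∈ s, 0 < d → ∀ X : Mat H d, (∀ i j, X i j ∈ P.M) → ‖mapVec L X‖ ≤ r * ‖leftOp X‖
  cbR : ∀ d ∈ s, 0 < d → ∀ Y : Mat H d, (∀ i j, Y i j ∈ P.B) → ‖mapVec Λ Y‖ ≤ r * ‖rightOp Y‖
  eqL : ∀ g ∈ P.G k, ∀ h ∈ P.G k, ∀ x ∈ P.M, L (g * x * h) = g (P.conjOp (star h) (L x))
  eqR : ∀ g ∈ P.G k, ∀ h ∈ P.G k, ∀ y ∈ P.B,
    Λ (P.conjOp (star h) * y * P.conjOp (star g)) = g (P.conjOp (star h) (Λ y))

variable {P}

theorem mirror_one {d : ℕ} : P.mirror (1 : Mat H d) = 1 := by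
  refine Matrix.ext fun i j => ?_
  by_cases h : i = j
  · subst h; simp only [Pair.mirror, Matrix.one_apply_eq, P.conjOp_one]
  · simp only [Pair.mirror, Matrix.one_apply_ne h, Matrix.one_apply_ne (Ne.symm h), P.conjOp_zero]

theorem isSymm_left {d : ℕ} {X : Mat H d} (h : IsSymm X) : IsSymm (leftOp X) :=
  ⟨by rw [star_leftOp, h.1], by rw [← leftOp_mul, h.2, leftOp_one]⟩

theorem isSymm_right {d : ℕ} {n : Mat H d} (h : IsSymm n) : IsSymm (rightOp (P.mirror n)) := by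
  refine ⟨?_, by rw [rightOp_mul, ← P.mirror_mul, h.2, mirror_one, rightOp_one]⟩
  rw [star_rightOp]
  congr 1
  refine Matrix.ext fun i j => ?_
  simp only [Matrix.star_apply, Pair.mirror, P.star_conjOp]
  rw [← Matrix.star_apply, h.1]

theorem testLe_mono {K : Type u} [NormedAddCommGroup K] [InnerProductSpace ℂ K] [CompleteSpace K]
    {A B : StarSubalgebra ℂ (K →L[ℂ] K)} {v : K} {ν ν' : ℝ} (h : TestLe A B v ν) (hν : ν ≤ ν') :
    TestLe A B v ν' := fun ι _ bar a b L p r cp cr hb ha hb' hp hr hdeg =>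
  (h ι bar a b L p r cp cr hb ha hb' hp hr hdeg).trans (mul_le_mul_of_nonneg_right hν
    (mul_nonneg ((abs_nonneg _).trans (hp 0 ⟨by norm_num, by norm_num⟩))
      ((abs_nonneg _).trans (hr 0 ⟨by norm_num, by norm_num⟩))))

omit [CompleteSpace H] in
theorem unitAt_diag {D : ℕ} (o : Fin D) (g x h : H →L[ℂ] H) :
    unitAt o o (g * x * h) = tens 1 g * unitAt o o x * tens 1 h := by
  rw [show tens (1 : Matrix (Fin D) (Fin D) ℂ) g = Matrix.diagonal fun _ => g by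
      refine Matrix.ext fun i j => ?_
      by_cases hij : i = j <;> simp [tens_apply, hij],
    show tens (1 : Matrix (Fin D) (Fin D) ℂ) h = Matrix.diagonal fun _ => h by
      refine Matrix.ext fun i j => ?_
      by_cases hij : i = j <;> simp [tens_apply, hij]]
  refine Matrix.ext fun i j => ?_
  rw [Matrix.mul_diagonal, Matrix.diagonal_mul, unitAt, unitAt, Matrix.single_apply,
    Matrix.single_apply]
  split_ifs <;> simp

omit [CompleteSpace H] in
theorem rmul_diag {D : ℕ} (o : Fin D) (g x h : H →L[ℂ] H) :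
    rmul (rmul (tens 1 g) (unitAt o o x)) (tens 1 h) = unitAt o o (g * x * h) := by
  refine Matrix.ext fun m k => ?_
  have hd : ∀ (z : H →L[ℂ] H) (a b : Fin D), tens 1 z a b = if a = b then z else 0 :=
    fun z a b => by by_cases hab : a = b <;> simp [tens_apply, hab]
  have e1 : ∀ a b, rmul (tens 1 g) (unitAt o o x) a b = g * unitAt o o x a b := fun a b => by
    rw [rmul, Finset.sum_eq_single b] <;> simp +contextual [hd]
  rw [rmul, Finset.sum_eq_single m, e1, hd, if_pos rfl, unitAt, unitAt, Matrix.single_apply,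
    Matrix.single_apply] <;> simp +contextual [hd, eq_comm]

/-- What KEY gives on one big amplification, read entrywise. -/
theorem stage_one (hT : TestSpec.{u}) {CK : ℝ} (hCK : 0 ≤ CK)
    (hK : ∀ (K : Type u) [NormedAddCommGroup K] [InnerProductSpace ℂ K] [CompleteSpace K]
      (E : Letters K) (γ ν : ℝ) (N : ℕ),
      0 ≤ γ → 0 < ν → 64 ≤ N →
      (∀ x ∈ E.A, ∀ y ∈ E.B, ‖x * y - y * x‖ ≤ γ * (‖x‖ * ‖y‖)) →
      (∀ x ∈ E.A, ∀ y ∈ E.B, ‖(x * y - y * x) E.v‖ ≤ ν * (‖x‖ * ‖y‖)) →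
      ‖E.X E.v - E.X' E.v‖ ≤ ν → ‖E.Y E.v - E.Y' E.v‖ ≤ ν → TestLe E.A E.B E.v ν →
      ∃ L Λ : (K →L[ℂ] K) → K,
        (∀ x ∈ E.A, ∀ y ∈ E.A, ∀ c : ℂ, L (c • x + y) = c • L x + L y) ∧
        (∀ x ∈ E.B, ∀ y ∈ E.B, ∀ c : ℂ, Λ (c • x + y) = c • Λ x + Λ y) ∧
        (∀ x ∈ E.A, ‖L x‖ ≤ CK * ν * ‖x‖) ∧ (∀ y ∈ E.B, ‖Λ y‖ ≤ CK * ν * ‖y‖) ∧
        (∀ x ∈ E.A, ∀ i j, L (E.a i * x * E.a j) = E.a i (E.b j (L x))) ∧
        (∀ y ∈ E.B, ∀ i j, Λ (E.b j * y * E.b i) = E.a i (E.b j (Λ y))) ∧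
        ‖E.residual L Λ‖ ≤ CK * ν * (1 / Real.sqrt (Real.log N) + N * γ))
    {γ ν ν' : ℝ} {N : ℕ} (hN : 64 ≤ N) (hop : P.OpLe γ) (hnu : P.NuLe ν) (hle : ν ≤ ν')
    (k : ℕ) {D : ℕ} (hD : 0 < D) (X Y nX nY : Mat H D)
    (hX : ∀ i j, X i j ∈ P.M) (hY : ∀ i j, Y i j ∈ P.M)
    (hnX : ∀ i j, nX i j ∈ P.N) (hnY : ∀ i j, nY i j ∈ P.N)
    (sX : IsSymm X) (sY : IsSymm Y) (sX' : IsSymm nX) (sY' : IsSymm nY)
    (vX : ‖(leftOp nX - leftOp X) (P.xi D)‖ ≤ ν') (vY : ‖(leftOp nY - leftOp Y) (P.xi D)‖ ≤ ν')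
    (s : Finset ℕ) (hs : ∀ d ∈ s, 0 < d → d ∣ D) :
    ∃ L Λ, Good P (CK * ν') k s L Λ ∧
      ‖res P X Y nX nY L Λ‖ ≤ CK * ν' * (1 / Real.sqrt (Real.log N) + N * γ) := by
  have hν' : 0 < ν' := hnu.pos.trans_le hle
  let E : Letters (Amp H D) :=
    { A := leftAlg P.M D
      B := rightAlg P.Bal D
      v := P.xi D
      X := leftOp X
      X' := rightOp (P.mirror nX)
      Y := leftOp Y
      Y' := rightOp (P.mirror nY)
      ι := Idx P k D
      fin := inferInstance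
      grp := inferInstance
      a := aHom P k
      b := fun i => rightOp (rmat P i)
      b_one := rightOp_rmat_one P
      b_mul := fun i j => rightOp_rmat_mul P i j
      norm_v := (P.norm_xi hD).le
      memA := ⟨⟨X, hX, rfl⟩, ⟨Y, hY, rfl⟩, fun i => ⟨_, lmat_mem P i, rfl⟩⟩
      memB := ⟨⟨_, P.mirror_mem hnX, rfl⟩, ⟨_, P.mirror_mem hnY, rfl⟩,
        fun i => ⟨_, rmat_mem P i, rfl⟩⟩
      symm := ⟨isSymm_left sX, isSymm_right sX', isSymm_left sY, isSymm_right sY'⟩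
      a_star := fun i => star_lmat P i
      b_star := fun i => star_rmat P i
      a_comm := by rintro i _ ⟨Z, hZ, rfl⟩; exact lmat_comm P i hZ
      b_comm := by rintro i _ ⟨Z, hZ, rfl⟩; exact rmat_comm P i hZ
      a_v := fun i => lmat_xi P i }
  have hnear : ∀ {Z n : Mat H D}, (∀ i j, n i j ∈ P.N) → IsSymm n →
      ‖(leftOp n - leftOp Z) (P.xi D)‖ ≤ ν' →
      ‖leftOp Z (P.xi D) - rightOp (P.mirror n) (P.xi D)‖ ≤ ν' := fun hn hs h => by
    rw [P.rightOp_mirror_xi hn, hs.1, norm_sub_rev]; exact h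
  obtain ⟨LK, ΛK, linL, linR, bL, bR, eL, eR, hres⟩ := hK (Amp H D) E γ ν' N hop.nonneg hν' hN
    (by rintro _ ⟨A, hA, rfl⟩ _ ⟨B, hB, rfl⟩; exact hop.comm D A B hA hB)
    (by
      rintro _ ⟨A, hA, rfl⟩ _ ⟨B, hB, rfl⟩
      exact (hnu.bound D A B hA hB).trans (mul_le_mul_of_nonneg_right hle
        (mul_nonneg (norm_nonneg _) (norm_nonneg _))))
    (hnear hnX sX' vX) (hnear hnY sY' vY)
    (testLe_mono (hT H P ν hnu D hD _ _ (fun T hT => hT) (fun T hT => hT)) hle)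
  set o : Fin D := ⟨0, hD⟩
  set FL : Mat H D → Amp H D := fun Z => LK (leftOp Z)
  set FR : Mat H D → Amp H D := fun Z => ΛK (rightOp Z)
  have hlinFL : ∀ A B : Mat H D, (∀ i j, A i j ∈ P.M) → (∀ i j, B i j ∈ P.M) → ∀ c : ℂ,
      FL (c • A + B) = c • FL A + FL B := fun A B hA hB c => by
    simp only [FL, leftOp_add, leftOp_smul]
    exact linL _ ⟨A, hA, rfl⟩ _ ⟨B, hB, rfl⟩ c
  have hlinFR : ∀ A B : Mat H D, (∀ i j, A i j ∈ P.Bal) → (∀ i j, B i j ∈ P.Bal) → ∀ c : ℂ,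
      FR (c • A + B) = c • FR A + FR B := fun A B hA hB c => by
    simp only [FR, rightOp_add, rightOp_smul]
    exact linR _ ⟨A, hA, rfl⟩ _ ⟨B, hB, rfl⟩ c
  have hrm : ∀ σ : Mon D, rmat P ((1, σ) : Idx P k D) = tens (mat σ) 1 := fun σ => by
    show tens (mat σ) (P.conjOp (star (1 : H →L[ℂ] H))) = _
    rw [star_one, P.conjOp_one]
  have hlawL : ∀ (σ τ : Mon D) (Z : Mat H D), (∀ i j, Z i j ∈ P.M) →
      FL (tens (mat σ) 1 * Z * tens (mat τ) 1) =
        leftOp (tens (mat σ) 1) (rightOp (tens (mat τ) 1) (FL Z)) := fun σ τ Z hZ => by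
    have := eL _ ⟨Z, hZ, rfl⟩ ((1, σ) : Idx P k D) ((1, τ) : Idx P k D)
    simp only [E, hrm] at this
    simp only [FL, leftOp_mul]
    exact this
  have hlawR : ∀ (σ τ : Mon D) (Z : Mat H D), (∀ i j, Z i j ∈ P.Bal) →
      FR (tens (mat σ) 1 * Z * tens (mat τ) 1) =
        leftOp (tens (mat σ) 1) (rightOp (tens (mat τ) 1) (FR Z)) := fun σ τ Z hZ => by
    have := eR _ ⟨Z, hZ, rfl⟩ ((1, σ) : Idx P k D) ((1, τ) : Idx P k D)
    simp only [E, hrm, rightOp_mul, rmul_scalar] at this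
    exact this
  have mL : ∀ Z : Mat H D, (∀ i j, Z i j ∈ P.M) →
      mapVec (entryMap P.M FL o) Z = LK (leftOp Z) :=
    fun Z hZ => mapVec_entryMap P.M FL hlinFL hlawL o Z hZ
  have mR : ∀ Z : Mat H D, (∀ i j, Z i j ∈ P.B) →
      mapVec (entryMap P.Bal FR o) Z = ΛK (rightOp Z) :=
    fun Z hZ => mapVec_entryMap P.Bal FR hlinFR hlawR o Z hZ
  refine ⟨entryMap P.M FL o, entryMap P.Bal FR o, ⟨?_, ?_, ?_, ?_, ?_, ?_, ?_, ?_⟩, ?_⟩
  · exact fun x hx y hy c => entryMap_linear P.M FL hlinFL o hx hy c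
  · exact fun x hx y hy c => entryMap_linear P.Bal FR hlinFR o hx hy c
  · exact fun x hx => if_neg hx
  · exact fun x hx => if_neg hx
  · intro d hd hd0 Z hZ
    obtain ⟨q, rfl⟩ := hs d hd hd0
    let e : (Σ _ : Fin q, Fin d) ≃ Fin (d * q) :=
      (Equiv.sigmaEquivProd _ _).trans (finProdFinEquiv.trans (finCongr (mul_comm q d)))
    have h0 : entryMap P.M FL o 0 = 0 := by
      simpa using entryMap_linear P.M FL hlinFL o (zero_mem P.M) (zero_mem P.M) 1
    have hblk := vecOf_blk e (fun _ => hd0) (entryMap P.M FL o) h0 (fun _ => Z)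
    have hnorm : ‖mapVec (entryMap P.M FL o) Z‖ =
        ‖mapVec (entryMap P.M FL o) (blk e fun _ => Z)‖ := by
      refine (pow_left_inj₀ (norm_nonneg _) (norm_nonneg _) two_ne_zero).1 ?_
      conv_rhs => rw [mapVec, hblk, norm_sq_bvec]
      simp only [Finset.sum_const, Finset.card_univ, Fintype.card_fin, nsmul_eq_mul, Nat.cast_mul]
      have hq : q ≠ 0 := fun hq => by simp [hq] at hD
      field_simp
      rfl
    rw [hnorm, mL _ (blk_mem e (zero_mem P.M) fun _ => hZ)]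
    exact (bL _ ⟨_, blk_mem e (zero_mem P.M) fun _ => hZ, rfl⟩).trans
      (mul_le_mul_of_nonneg_left (norm_leftOp_blk_le e (norm_nonneg _) fun _ => le_rfl)
        (mul_nonneg hCK hν'.le))
  · intro d hd hd0 Z hZ
    obtain ⟨q, rfl⟩ := hs d hd hd0
    let e : (Σ _ : Fin q, Fin d) ≃ Fin (d * q) :=
      (Equiv.sigmaEquivProd _ _).trans (finProdFinEquiv.trans (finCongr (mul_comm q d)))
    have h0 : entryMap P.Bal FR o 0 = 0 := by
      simpa using entryMap_linear P.Bal FR hlinFR o (zero_mem P.Bal) (zero_mem P.Bal) 1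
    have hblk := vecOf_blk e (fun _ => hd0) (entryMap P.Bal FR o) h0 (fun _ => Z)
    have hnorm : ‖mapVec (entryMap P.Bal FR o) Z‖ =
        ‖mapVec (entryMap P.Bal FR o) (blk e fun _ => Z)‖ := by
      refine (pow_left_inj₀ (norm_nonneg _) (norm_nonneg _) two_ne_zero).1 ?_
      conv_rhs => rw [mapVec, hblk, norm_sq_bvec]
      simp only [Finset.sum_const, Finset.card_univ, Fintype.card_fin, nsmul_eq_mul, Nat.cast_mul]
      have hq : q ≠ 0 := fun hq => by simp [hq] at hD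
      field_simp
      rfl
    have hB0 : (0 : H →L[ℂ] H) ∈ P.B := P.mem_Bal.mp (zero_mem P.Bal)
    have hr : ‖rightOp (blk e fun _ => Z)‖ ≤ ‖rightOp Z‖ := by
      rw [← P.mirror_mirror (blk e fun _ => Z), ← P.mirror_mirror Z, P.norm_rightOp_mirror,
        P.norm_rightOp_mirror, P.mirror_mirror, mirror_blk]
      exact norm_leftOp_blk_le e (norm_nonneg _) fun _ => le_rfl
    rw [hnorm, mR _ (blk_mem e hB0 fun _ => hZ)]
    exact (bR _ ⟨_, blk_mem e hB0 fun _ => hZ, rfl⟩).trans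
      (mul_le_mul_of_nonneg_left hr (mul_nonneg hCK hν'.le))
  · intro g hg h hh x hx
    have hg' := (P.G_mem k g hg).1
    have hh' := (P.G_mem k h hh).1
    have hkey := eL _ ⟨_, unitAt_mem P.M o o hx, rfl⟩ ((⟨g, hg⟩, 1) : Idx P k D)
      ((⟨h, hh⟩, 1) : Idx P k D)
    simp only [E, aHom, MonoidHom.coe_mk, OneHom.coe_mk, lmat, rmat, mat_one, ← leftOp_mul,
      ← unitAt_diag] at hkey
    rw [entryMap, if_pos (mul_mem (mul_mem hg' hx) hh'), entryMap, if_pos hx]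
    simp only [FL]
    rw [hkey, leftOp_apply, Finset.sum_eq_single o, rightOp_apply, Finset.sum_eq_single o] <;>
      simp +contextual [tens_apply, Matrix.one_apply, eq_comm]
  · intro g hg h hh y hy
    have hcB : ∀ {z : H →L[ℂ] H}, z ∈ P.N → P.conjOp z ∈ P.Bal := fun hz =>
      P.mem_Bal.mpr ⟨_, hz, rfl⟩
    have hg' := hcB (star_mem (P.G_mem k g hg).2.1)
    have hh' := hcB (star_mem (P.G_mem k h hh).2.1)
    have hkey := eR _ ⟨_, unitAt_mem P.Bal o o (P.mem_Bal.mpr hy), rfl⟩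
      ((⟨g, hg⟩, 1) : Idx P k D) ((⟨h, hh⟩, 1) : Idx P k D)
    simp only [E, aHom, MonoidHom.coe_mk, OneHom.coe_mk, lmat, rmat, mat_one, rightOp_mul,
      rmul_diag] at hkey
    rw [entryMap, if_pos (mul_mem (mul_mem hh' (P.mem_Bal.mpr hy)) hg'), entryMap,
      if_pos (P.mem_Bal.mpr hy)]
    simp only [FR]
    rw [hkey, leftOp_apply, Finset.sum_eq_single o, rightOp_apply, Finset.sum_eq_single o] <;>
      simp +contextual [tens_apply, Matrix.one_apply, eq_comm]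
  · refine le_of_eq_of_le ?_ hres
    congr 1
    have h1 : ∀ (S : StarSubalgebra ℂ (H →L[ℂ] H)) (i j : Fin D), (1 : Mat H D) i j ∈ S :=
      fun S i j => by
        rw [Matrix.one_apply]
        split_ifs
        exacts [one_mem S, zero_mem S]
    have hm : ∀ i j, rmul (P.mirror nY) (P.mirror nX) i j ∈ P.B := fun i j =>
      P.mem_Bal.mp (sum_mem fun l _ =>
        mul_mem (P.mem_Bal.mpr (P.mirror_mem hnY l j)) (P.mem_Bal.mpr (P.mirror_mem hnX i l)))
    simp only [res, Letters.residual, E]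
    rw [mL _ (mul_entry_mem hX hY), mR _ hm, mL _ hY, mR _ (P.mirror_mem hnY), mL _ hX,
      mR _ (P.mirror_mem hnX), mL _ (h1 P.M), mR _ (fun i j => P.mem_Bal.mp (h1 P.Bal i j)),
      leftOp_mul, ← rightOp_mul, leftOp_one, rightOp_one, comp_mul_apply]

end Vale.Agent.P096.Full.Uniform
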